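import Vale.Agent.N131L.Main

namespace Vale.Agent.Results.P131.A0Lebesgue

open MeasureTheory Vale.Agent.N131L
open scoped ENNReal

universe v w

/-- (1) On real and complex `L^p(ℝ)`, `1 ≤ p < ∞`: two operators of the commutant of a
quasinilpotent operator can form a transitive pair, all three operators positive.
(2) Quasinilpotent operators with transitive commutant on the spaces `L^p(ℝ; Y)`. -/
theorem result (𝕜 : Type v) [RCLike 𝕜] (p : ℝ≥0∞) [Fact (1 ≤ p)] (hp : p ≠ ∞)
    (Y : Type w) [NormedAddCommGroup Y] [NormedSpace 𝕜 Y] [Nontrivial Y] :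
    HasPositivePair 𝕜 {f : Lp 𝕜 p (volume : Measure ℝ) | AENonneg f} ∧
    HasCounterexample 𝕜 (Lp Y p (volume : Measure ℝ)) := by
  refine ⟨main_scalar hp, ?_⟩
  obtain ⟨T, h1, h2, h3⟩ := main_vector (𝕜 := 𝕜) (Y := Y) hp
  exact ⟨T, h1, h2, fun M hc hM => h3 M hc fun A hA => hM A (hA T rfl).symm⟩

end Vale.Agent.Results.P131.A0Lebesgue
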